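import Vale.Agent.P321.Defs

/-!
Sample complexity of trace reconstruction at an arbitrary success probability `s`.
-/

namespace Vale.Agent.P321Z

open Vale.Agent.P321
open scoped unitInterval ENNReal

/-- The estimator `est`, given `m` independent traces, outputs the unknown string with probability
at least `s`, for every string of length `n`. -/
def Succeeds (q : I) (s : ℝ) (n m : ℕ) (est : Estimator n) : Prop :=
  ∀ x : Fin n → Bool, ENNReal.ofReal s ≤ ((tracesLaw q (List.ofFn x) m).bind est) x

/-- The least number `m` of traces for which some estimator outputs every string of length `n`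
with probability at least `s` (`⊤` if there is none). -/
noncomputable def Ts (q : I) (s : ℝ) (n : ℕ) : ℕ∞ :=
  ⨅ (m : ℕ) (_ : ∃ est : Estimator n, Succeeds q s n m est), (m : ℕ∞)

end Vale.Agent.P321Z
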