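import Vale.Agent.P321Z.Defs
import Vale.Agent.P321.H35.Round

/-!
The lower bound at small success probability, with exponent `1 + 1/47`.
-/

namespace Vale.Agent.P321Z

open Vale.Agent.P321 Vale.Agent.P321.LB2 Filter Topology
open scoped unitInterval ENNReal

/-- monotonicity in the deletion probability -/
theorem Ts_mono_q {q q' : I} (h : (q : ℝ) ≤ q') (s : ℝ) (n : ℕ) : Ts q s n ≤ Ts q' s n := by
  rcases eq_or_lt_of_le q.2.2 with h1 | h1
  · have e : q = q' := Subtype.ext (le_antisymm h (h1 ▸ q'.2.2))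
    rw [e]
  · have h0 : 0 < 1 - (q : ℝ) := by linarith
    have hs0 : 0 ≤ ((q' : ℝ) - q) / (1 - q) := div_nonneg (by linarith) h0.le
    have hs1 : ((q' : ℝ) - q) / (1 - q) ≤ 1 := by
      rw [div_le_one h0]
      linarith [q'.2.2]
    set r : I := ⟨((q' : ℝ) - q) / (1 - q), hs0, hs1⟩ with hr
    have hK : ∀ x : List Bool, traceLaw q' x = (traceLaw q x).bind (traceLaw r) := fun x =>
      R3.H101.traceLaw_thin (by rw [hr]; simp only; field_simp; ring) x
    unfold Ts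
    refine le_iInf₂ fun m hm => ?_
    obtain ⟨est, hest⟩ := hm
    refine iInf₂_le m ⟨fun ts => (R3.H101.mapK (traceLaw r) ts).bind est, fun x => ?_⟩
    have h2 := hest x
    rwa [R3.H101.tracesLaw_sim (hK _) m, PMF.bind_bind] at h2

/-- two distinct strings of equal length at most `ℓ` whose trace laws are `δ`-close -/
def Close (q ℓ δ : ℝ) : Prop := ∃ x y : List Bool, x ≠ y ∧ x.length = y.length ∧
  (x.length : ℝ) ≤ ℓ ∧ ‖W q y - W q x‖ ≤ δ

theorem St_close (ε : ℝ) (hε1 : ε ≤ 1 / 2) : ∀ᶠ N : ℝ in atTop, ∀ q : ℝ,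
    ∀ (E1 E2 : ℝ) (u v : List Bool), St q ε N E1 E2 u v → Close q (N ^ (2 : ℝ)) E1 := by
  filter_upwards [MA.ev_pow_le 5 (1 / 5 + 1 / 2) 1 (by norm_num), eventually_ge_atTop 5] with
    N h1 hN q E1 E2 u v hS
  have hN0 : 0 < N := by linarith
  rw [Real.rpow_one] at h1
  set M : ℕ := ⌈N ^ (1 / 5 + ε)⌉₊ with hM
  have hM1 : N ^ (1 / 5 + ε) ≤ M := Nat.le_ceil _
  have hM2 : (M : ℝ) ≤ N ^ (1 / 5 + 1 / 2 : ℝ) + 1 := by
    have h2 := Nat.ceil_lt_add_one (Real.rpow_nonneg hN0.le (1 / 5 + ε))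
    have h3 : N ^ (1 / 5 + ε) ≤ N ^ (1 / 5 + 1 / 2 : ℝ) :=
      Real.rpow_le_rpow_of_exponent_le (by linarith) (by linarith)
    rw [← hM] at h2
    linarith
  have hp1 : (1:ℝ) ≤ N ^ (1 / 5 + 1 / 2 : ℝ) := Real.one_le_rpow (by linarith) (by norm_num)
  set lu : List Bool := List.replicate M false ++ false :: List.replicate M false with hlu
  set lv : List Bool := List.replicate M false ++ true :: List.replicate M false with hlv
  have hll : lu.length = lv.length := by simp [hlu, hlv]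
  have hlue : lu.length = 2 * M + 1 := by simp [hlu]; ring
  have hne : MA.sub u v lu ≠ MA.sub u v lv := by
    intro e
    have e2 := MA.sub_inj u v hS.len.symm hS.ne lu lv hll e
    rw [hlu, hlv] at e2
    have e3 := List.append_cancel_left e2
    simp at e3
  have hlen : (MA.sub u v lu).length = (MA.sub u v lv).length := by
    rw [MA.sub_length u v hS.len.symm, MA.sub_length u v hS.len.symm, hll]
  have h2 : (((MA.sub u v lu).length : ℕ) : ℝ) ≤ N ^ (2 : ℝ) := by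
    rw [MA.sub_length u v hS.len.symm, hlue]
    push_cast
    have h3 : 2 * (M : ℝ) + 1 ≤ N := by linarith
    calc (2 * (M : ℝ) + 1) * u.length ≤ N * N := by
          refine mul_le_mul h3 hS.hi (Nat.cast_nonneg _) hN0.le
      _ = N ^ (2 : ℝ) := by rw [← sq]; norm_cast
  have e : W q (MA.sub u v lv) - W q (MA.sub u v lu) =
      W q u ^ M * (W q v - W q u) * W q u ^ M := by
    rw [MA.sub_W, MA.sub_W, hlu, hlv, wd_ctx, wd_ctx]
    simp only [if_true, Bool.false_eq_true, if_false]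
    rw [mul_sub, sub_mul]
  exact ⟨_, _, hne, hlen, h2, by rw [e]; exact hS.e1 M hM1⟩

theorem wd_near {Y Z : Al} (hY : MA.Prob Y) (hZ : MA.Prob Z) (l : List Bool) :
    MA.Prob (MA.wd Y Z l) ∧ ‖MA.wd Y Z l - Y ^ l.length‖ ≤ l.length * ‖Z - Y‖ := by
  induction l with
  | nil =>
    rw [MA.wd_nil]
    refine ⟨by simpa using MA.prob_pow hY 0, by simp⟩
  | cons b l ih =>
    obtain ⟨ih1, ih2⟩ := ih
    have hb : MA.Prob (if b then Z else Y) := by cases b <;> simpa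
    have hb2 : ‖(if b then Z else Y) - Y‖ ≤ ‖Z - Y‖ := by cases b <;> simp
    rw [MA.wd_cons]
    refine ⟨hb.mul ih1, ?_⟩
    have e : (if b then Z else Y) * MA.wd Y Z l - Y ^ (b :: l).length =
        ((if b then Z else Y) - Y) * MA.wd Y Z l + Y * (MA.wd Y Z l - Y ^ l.length) := by
      rw [List.length_cons, pow_succ', sub_mul, mul_sub]; abel
    rw [e]
    refine (norm_add_le _ _).trans ?_
    have h1 : ‖((if b then Z else Y) - Y) * MA.wd Y Z l‖ ≤ ‖(if b then Z else Y) - Y‖ :=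
      MA.l1_mul_prob_right ih1
    have h2 : ‖Y * (MA.wd Y Z l - Y ^ l.length)‖ ≤ ‖MA.wd Y Z l - Y ^ l.length‖ :=
      MA.l1_mul_prob_left hY
    rw [List.length_cons]
    push_cast
    linarith

/-- **Many hypotheses.**  `k` independent blocks, each one of two close strings. -/
theorem succ_le_of_close (q : I) {ℓ δ s : ℝ} (hc : Close q ℓ δ) {k n m : ℕ}
    (hkn : (k : ℝ) * ℓ ≤ n) {est : Estimator n} (hest : Succeeds q s n m est) :
    s ≤ (1 / 2) ^ k + m * (k * δ) := by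
  classical
  obtain ⟨x, y, hne, hlen, hl, hδ⟩ := hc
  have hδ0 : 0 ≤ δ := (norm_nonneg _).trans hδ
  have hkl : k * x.length ≤ n := by
    have : ((k * x.length : ℕ) : ℝ) ≤ n := by
      push_cast
      exact (mul_le_mul_of_nonneg_left hl (Nat.cast_nonneg k)).trans hkn
    exact_mod_cast this
  set pad : List Bool := List.replicate (n - k * x.length) false with hpad
  set z : (Fin k → Bool) → List Bool := fun sg => MA.sub x y (List.ofFn sg) ++ pad with hz
  have hzl : ∀ sg, (z sg).length = n := by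
    intro sg
    rw [hz]
    simp only [List.length_append, hpad, List.length_replicate]
    rw [MA.sub_length x y hlen, List.length_ofFn]
    omega
  set f : (Fin k → Bool) → (Fin n → Bool) := fun sg i => (z sg).get (i.cast (hzl sg).symm) with hf
  have hfz : ∀ sg, List.ofFn (f sg) = z sg := by
    intro sg
    refine List.ext_get (by rw [List.length_ofFn, hzl]) fun i h1 h2 => ?_
    simp [hf]
  have hinj : Function.Injective f := by
    intro sg tg e
    have e1 : z sg = z tg := by rw [← hfz, ← hfz, e]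
    have e2 : MA.sub x y (List.ofFn sg) = MA.sub x y (List.ofFn tg) := List.append_cancel_right e1
    exact List.ofFn_injective (MA.sub_inj x y hlen hne _ _ (by simp) e2)
  set z0 : List Bool := MA.sub x y (List.replicate k false) ++ pad with hz0
  have hY := W_prob q.2.1 q.2.2 x
  have hZ := W_prob q.2.1 q.2.2 y
  have hd : ∀ sg, l1 (W q (z sg) - W q z0) ≤ k * δ := by
    intro sg
    have e : W q (z sg) - W q z0 =
        (MA.wd (W q x) (W q y) (List.ofFn sg) - W q x ^ (List.ofFn sg).length) * W q pad := by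
      rw [hz, hz0]
      simp only
      rw [W_append, W_append, MA.sub_W, MA.sub_W, MA.wd_replicate, List.length_ofFn, sub_mul]
    rw [e]
    have h1 : ‖(MA.wd (W q x) (W q y) (List.ofFn sg) - W q x ^ (List.ofFn sg).length) * W q pad‖ ≤
        ‖MA.wd (W q x) (W q y) (List.ofFn sg) - W q x ^ (List.ofFn sg).length‖ :=
      MA.l1_mul_prob_right (W_prob q.2.1 q.2.2 pad)
    have h2 := (wd_near hY hZ (List.ofFn sg)).2
    rw [List.length_ofFn] at h2 h1
    rw [List.length_ofFn]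
    exact h1.trans (h2.trans (mul_le_mul_of_nonneg_left hδ (Nat.cast_nonneg k)))
  have hsg : ∀ sg, ENNReal.ofReal s ≤ (∑' ts, tracesLaw q z0 m ts * est ts (f sg)) +
      m * ENNReal.ofReal (k * δ) := by
    intro sg
    have h1 := hest (f sg)
    rw [PMF.bind_apply, hfz] at h1
    exact h1.trans (hybrid q z0 (z sg) _
      ((tsum_sub_le q z0 (z sg)).trans (ENNReal.ofReal_le_ofReal (hd sg))) m
      (fun ts => est ts (f sg)) (fun ts => PMF.coe_le_one _ _))
  have hsum : ∑ sg : Fin k → Bool, ∑' ts, tracesLaw q z0 m ts * est ts (f sg) ≤ 1 := by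
    rw [← Summable.tsum_finsetSum (fun _ _ => ENNReal.summable)]
    calc ∑' ts, ∑ sg : Fin k → Bool, tracesLaw q z0 m ts * est ts (f sg)
        ≤ ∑' ts, tracesLaw q z0 m ts * 1 := by
          refine ENNReal.tsum_le_tsum fun ts => ?_
          rw [← Finset.mul_sum]
          refine mul_le_mul_right ?_ _
          have e := (est ts).tsum_coe
          rw [← e, tsum_fintype, ← Finset.sum_image (s := Finset.univ) (g := f)
            (f := fun w => est ts w) (fun a _ b _ hab => hinj hab)]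
          exact Finset.sum_le_sum_of_subset (Finset.subset_univ _)
      _ = 1 := by simp
  have htot : (2 : ℝ≥0∞) ^ k * ENNReal.ofReal s ≤ 1 + 2 ^ k * (m * ENNReal.ofReal (k * δ)) := by
    have h1 := Finset.sum_le_sum (s := (Finset.univ : Finset (Fin k → Bool))) fun sg _ => hsg sg
    rw [Finset.sum_add_distrib, Finset.sum_const, Finset.sum_const, Finset.card_univ] at h1
    simp only [Fintype.card_fun, Fintype.card_bool, Fintype.card_fin, nsmul_eq_mul] at h1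
    push_cast at h1
    exact h1.trans (by gcongr)
  by_cases hs : s ≤ 0
  · exact hs.trans (by positivity)
  push Not at hs
  have hkδ : 0 ≤ (k : ℝ) * δ := by positivity
  have hr := ENNReal.toReal_mono (by
    exact ENNReal.add_ne_top.mpr ⟨ENNReal.one_ne_top,
      ENNReal.mul_ne_top (ENNReal.pow_ne_top (by norm_num))
        (ENNReal.mul_ne_top (ENNReal.natCast_ne_top m) ENNReal.ofReal_ne_top)⟩) htot
  rw [ENNReal.toReal_add ENNReal.one_ne_top (ENNReal.mul_ne_top (ENNReal.pow_ne_top (by norm_num))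
        (ENNReal.mul_ne_top (ENNReal.natCast_ne_top m) ENNReal.ofReal_ne_top)),
    ENNReal.toReal_mul, ENNReal.toReal_mul, ENNReal.toReal_mul, ENNReal.toReal_ofReal hs.le,
    ENNReal.toReal_ofReal hkδ] at hr
  simp only [ENNReal.toReal_pow, ENNReal.toReal_ofNat, ENNReal.toReal_one,
    ENNReal.toReal_natCast] at hr
  have h2k : (0 : ℝ) < 2 ^ k := by positivity
  have e : (1 / 2 : ℝ) ^ k + m * (k * δ) = (1 + 2 ^ k * (m * (k * δ))) / 2 ^ k := by
    rw [one_div, inv_pow]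
    field_simp
  rw [e, le_div_iff₀ h2k]
  linarith

theorem num_A' : (1083 / 10 : ℝ) ^ (1 + 1 / 46 : ℝ) < 120 := by
  have h1 : (1083 / 10 : ℝ) ^ (1 / 46 : ℝ) ≤ 1.1075 := by
    have h2 : (1083 / 10 : ℝ) ≤ 1.1075 ^ (46 : ℕ) := by norm_num
    calc (1083 / 10 : ℝ) ^ (1 / 46 : ℝ) ≤ ((1.1075 : ℝ) ^ (46 : ℕ)) ^ (1 / 46 : ℝ) :=
          Real.rpow_le_rpow (by norm_num) h2 (by norm_num)
      _ = 1.1075 := by
          rw [← Real.rpow_natCast, ← Real.rpow_mul (by norm_num)]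
          norm_num
  rw [Real.rpow_one_add' (by norm_num) (by norm_num)]
  calc (1083 / 10 : ℝ) * (1083 / 10 : ℝ) ^ (1 / 46 : ℝ) ≤ 1083 / 10 * 1.1075 := by gcongr
    _ < 120 := by norm_num

/-- close pairs, uniformly in `q = L ^ (-c)` -/
theorem close_uni : ∃ c c1 : ℝ, 0 < c ∧ 0 < c1 ∧ ∀ᶠ L : ℝ in atTop, L ^ (-c) ≤ 1 / 2 ∧
    Close (L ^ (-c)) (Real.exp (L / 2)) (Real.exp (-(c1 * L ^ (1 + 99 / 4600 : ℝ)))) := by
  obtain ⟨R, a1, hR1, hcov⟩ := cover_uni (κ := 1 / 46) (by norm_num) (by norm_num) (by norm_num)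
    num_A' (SuperLU.of_round (by norm_num) (by norm_num) (by norm_num) (by norm_num) roundU.log)
  obtain ⟨Cb, hCb1, hbase⟩ := base_uni (1 / 50000) R (by norm_num)
  obtain ⟨aT, haT⟩ := Filter.eventually_atTop.1
    (Real.tendsto_exp_atTop.eventually (St_close (1 / 50000) (by norm_num)))
  set c : ℝ := 1 / (200 * Cb) with hc
  have hc0 : 0 < c := by positivity
  set c1 : ℝ := R / (Cb ^ (1 / 46 : ℝ) * (4 * (1083 / 10)) ^ (1 + 1 / 46 : ℝ)) with hc1
  have hc10 : 0 < c1 := by positivity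
  refine ⟨c, c1, hc0, hc10, ?_⟩
  have ev2 : ∀ᶠ x : ℝ in atTop, Cb ^ Cb * x ^ (1 / 200 : ℝ) ≤ x ^ (1 / 100 : ℝ) :=
    MA.ev_pow_le _ _ _ (by norm_num)
  have ev3 : ∀ᶠ x : ℝ in atTop, max a1 1 ≤ x ^ (1 / 100 : ℝ) :=
    (tendsto_rpow_atTop (by norm_num)).eventually_ge_atTop _
  have ev4 : ∀ᶠ x : ℝ in atTop, R ≤ (x ^ (1 / 100 : ℝ)) ^ (1 / 46 : ℝ) :=
    ((tendsto_rpow_atTop (by norm_num)).comp
      (tendsto_rpow_atTop (by norm_num))).eventually_ge_atTop _
  have ev5 : ∀ᶠ x : ℝ in atTop, 4 * Cb * x ^ (1 / 100 : ℝ) ≤ x ^ (1 : ℝ) :=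
    MA.ev_pow_le _ _ _ (by norm_num)
  have ev6 : ∀ᶠ x : ℝ in atTop, (2:ℝ) ≤ x ^ c := (tendsto_rpow_atTop hc0).eventually_ge_atTop _
  filter_upwards [ev2, ev3, ev4, ev5, ev6, eventually_ge_atTop (4 * (1083 / 10) * aT),
    eventually_ge_atTop 1] with L g2 g3 g4 g5 g6 g7 g8
  have hL0 : 0 < L := by linarith
  rw [Real.rpow_one] at g5
  have hq1pos : 0 < L ^ (-c) := Real.rpow_pos_of_pos hL0 _
  have hq1half : L ^ (-c) ≤ 1 / 2 := by
    rw [Real.rpow_neg hL0.le, one_div]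
    exact inv_anti₀ (by norm_num) g6
  refine ⟨hq1half, ?_⟩
  have hbq : (Cb / L ^ (-c)) ^ Cb ≤ L ^ (1 / 100 : ℝ) := by
    rw [Real.rpow_neg hL0.le, div_inv_eq_mul, Real.mul_rpow (by linarith) (by positivity),
      ← Real.rpow_mul hL0.le]
    have : c * Cb = 1 / 200 := by rw [hc]; field_simp
    rw [this]
    exact g2
  obtain ⟨a0, ha0l, ha0u, hSt0⟩ := hbase _ hq1pos hq1half _ hbq
  have h13 : a1 ≤ L ^ (1 / 100 : ℝ) := (le_max_left _ _).trans g3
  have h14 : 1 ≤ L ^ (1 / 100 : ℝ) := (le_max_right _ _).trans g3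
  have ha01 : 1 ≤ a0 := h14.trans ha0l
  have ha0p : 0 < a0 := by linarith
  have ha0L : a0 ≤ L / 4 := by linarith
  obtain ⟨a, b1, b2, b3, u, v, hS⟩ := hcov _ hq1pos.le (by linarith) a0
    (h13.trans ha0l) ha01 (g4.trans (Real.rpow_le_rpow (by positivity) ha0l (by norm_num)))
    hSt0 (L / 4) ha0L
  have hsz : Real.exp a ^ (2 : ℝ) ≤ Real.exp (L / 2) := by
    rw [← Real.exp_mul]
    exact Real.exp_le_exp.2 (by linarith)
  have haL : L ≤ 4 * (1083 / 10) * a := by linarith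
  have haaT : aT ≤ a := by linarith
  have hapos : 0 < a := by linarith
  obtain ⟨x, y, k1, k2, k3, k4⟩ := haT a haaT _ _ _ u v hS
  refine ⟨x, y, k1, k2, k3.trans hsz, k4.trans (Real.exp_le_exp.2 (neg_le_neg ?_))⟩
  have f1 : a0 ^ (1 / 46 : ℝ) ≤ Cb ^ (1 / 46 : ℝ) * L ^ (1 / 4600 : ℝ) := by
    calc a0 ^ (1 / 46 : ℝ) ≤ (Cb * L ^ (1 / 100 : ℝ)) ^ (1 / 46 : ℝ) :=
          Real.rpow_le_rpow ha0p.le ha0u (by norm_num)
      _ = _ := by
          rw [Real.mul_rpow (by linarith) (by positivity), ← Real.rpow_mul hL0.le]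
          norm_num
  have f2 : L ^ (1 + 1 / 46 : ℝ) ≤ (4 * (1083 / 10)) ^ (1 + 1 / 46 : ℝ) *
      a ^ (1 + 1 / 46 : ℝ) := by
    rw [← Real.mul_rpow (by norm_num) hapos.le]
    exact Real.rpow_le_rpow hL0.le haL (by norm_num)
  have f3 : L ^ (1 + 99 / 4600 : ℝ) * L ^ (1 / 4600 : ℝ) = L ^ (1 + 1 / 46 : ℝ) := by
    rw [← Real.rpow_add hL0]; norm_num
  have hd1 : 0 < a0 ^ (1 / 46 : ℝ) := Real.rpow_pos_of_pos ha0p _
  have hd2 : 0 < Cb ^ (1 / 46 : ℝ) * (4 * (1083 / 10)) ^ (1 + 1 / 46 : ℝ) := by positivity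
  rw [hc1, div_mul_eq_mul_div, div_mul_eq_mul_div, div_le_div_iff₀ hd2 hd1]
  have hR0' : 0 < R := by linarith
  have f4 : L ^ (1 + 99 / 4600 : ℝ) * a0 ^ (1 / 46 : ℝ) ≤
      a ^ (1 + 1 / 46 : ℝ) * (Cb ^ (1 / 46 : ℝ) * (4 * (1083 / 10)) ^ (1 + 1 / 46 : ℝ)) := by
    calc L ^ (1 + 99 / 4600 : ℝ) * a0 ^ (1 / 46 : ℝ)
        ≤ L ^ (1 + 99 / 4600 : ℝ) * (Cb ^ (1 / 46 : ℝ) * L ^ (1 / 4600 : ℝ)) := by gcongr
      _ = Cb ^ (1 / 46 : ℝ) * L ^ (1 + 1 / 46 : ℝ) := by rw [← f3]; ring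
      _ ≤ Cb ^ (1 / 46 : ℝ) * ((4 * (1083 / 10)) ^ (1 + 1 / 46 : ℝ) *
            a ^ (1 + 1 / 46 : ℝ)) := by gcongr
      _ = _ := by ring
  calc R * L ^ (1 + 99 / 4600 : ℝ) * a0 ^ (1 / 46 : ℝ)
      = R * (L ^ (1 + 99 / 4600 : ℝ) * a0 ^ (1 / 46 : ℝ)) := by ring
    _ ≤ R * (a ^ (1 + 1 / 46 : ℝ) *
          (Cb ^ (1 / 46 : ℝ) * (4 * (1083 / 10)) ^ (1 + 1 / 46 : ℝ))) := by gcongr
    _ = _ := by ring

/-- **The lower bound at small success probability.** -/
theorem lower_s : ∃ c : ℝ, 0 < c ∧ ∃ n0 : ℕ, ∀ n : ℕ, n0 ≤ n → ∀ q : I,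
    (Real.log n) ^ (-c) ≤ (q : ℝ) → ∀ s : ℝ,
      Real.exp (-(Real.log n) ^ (1 + 1 / 47 : ℝ)) ≤ s →
      (⌈Real.exp ((Real.log n) ^ (1 + 1 / 47 : ℝ))⌉₊ : ℕ∞) ≤ Ts q s n := by
  obtain ⟨c, c1, hc, hc1, hev⟩ := close_uni
  refine ⟨c, hc, ?_⟩
  have hlog : Tendsto (fun n : ℕ => Real.log (n : ℝ)) atTop atTop :=
    Real.tendsto_log_atTop.comp tendsto_natCast_atTop_atTop
  have ev1 : ∀ᶠ x : ℝ in atTop, (5 / c1) * x ^ (1 + 1 / 47 : ℝ) ≤ x ^ (1 + 99 / 4600 : ℝ) :=
    MA.ev_pow_le _ _ _ (by norm_num)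
  have ev2 : ∀ᶠ x : ℝ in atTop, 200 * x ^ (1 + 1 / 47 : ℝ) ≤ x ^ (2 : ℝ) :=
    MA.ev_pow_le _ _ _ (by norm_num)
  suffices hs : ∀ᶠ n : ℕ in atTop, ∀ q : I, (Real.log n) ^ (-c) ≤ (q : ℝ) → ∀ s : ℝ,
      Real.exp (-(Real.log n) ^ (1 + 1 / 47 : ℝ)) ≤ s →
      (⌈Real.exp ((Real.log n) ^ (1 + 1 / 47 : ℝ))⌉₊ : ℕ∞) ≤ Ts q s n from
    eventually_atTop.mp hs
  filter_upwards [hlog.eventually hev, hlog.eventually ev1, hlog.eventually ev2,
    hlog.eventually_ge_atTop 10, eventually_ge_atTop 1] with n g0 g1 g2 g3 hn1 q hq s hs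
  set L : ℝ := Real.log (n : ℝ) with hL
  have hL0 : 0 < L := by linarith
  obtain ⟨hhalf, hcl⟩ := g0
  have hq1pos : 0 < L ^ (-c) := Real.rpow_pos_of_pos hL0 _
  set q₁ : I := ⟨L ^ (-c), hq1pos.le, by linarith⟩ with hq₁
  refine le_trans ?_ (Ts_mono_q (q := q₁) (q' := q) hq s n)
  set B : ℝ := L ^ (1 + 1 / 47 : ℝ) with hB
  have hB10 : 10 ≤ B := g3.trans (Real.self_le_rpow_of_one_le (by linarith) (by norm_num))
  set k : ℕ := ⌈2 * B + 2⌉₊ with hk
  have hk1 : 2 * B + 2 ≤ k := Nat.le_ceil _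
  have hk2 : (k : ℝ) ≤ 3 * B := by
    have := (Nat.ceil_lt_add_one (show 0 ≤ 2 * B + 2 by linarith)).le
    linarith
  have hn' : (0:ℝ) < n := by exact_mod_cast hn1
  have hkn : (k : ℝ) * Real.exp (L / 2) ≤ n := by
    have e1 : (n : ℝ) = Real.exp (L / 2) * Real.exp (L / 2) := by
      rw [← Real.exp_add, add_halves, hL, Real.exp_log hn']
    rw [e1]
    refine mul_le_mul_of_nonneg_right ?_ (Real.exp_pos _).le
    have e2 : (L / 2) ^ 2 / 2 ≤ Real.exp (L / 2) := by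
      have := Real.quadratic_le_exp_of_nonneg (show 0 ≤ L / 2 by linarith)
      linarith
    have e3 : L ^ (2 : ℝ) = L ^ 2 := by norm_cast
    rw [e3] at g2
    nlinarith
  unfold Ts
  refine le_iInf₂ fun m hm => ?_
  obtain ⟨est, hest⟩ := hm
  have key := succ_le_of_close q₁ hcl hkn hest
  have hfin : Real.exp B ≤ m := by
    have a1 : (1 / 2 : ℝ) ^ k ≤ Real.exp (-B) / 2 := by
      have b1 : (1 / 2 : ℝ) ≤ Real.exp (-(1 / 2)) := by
        have := Real.add_one_le_exp (-(1 / 2) : ℝ)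
        linarith
      have b2 : Real.exp (-1) ≤ 1 / 2 := by
        rw [Real.exp_neg, ← one_div]
        apply one_div_le_one_div_of_le (by norm_num)
        have := Real.add_one_le_exp (1 : ℝ)
        linarith
      calc (1 / 2 : ℝ) ^ k ≤ Real.exp (-(1 / 2)) ^ k := pow_le_pow_left₀ (by norm_num) b1 k
        _ = Real.exp (k * -(1 / 2)) := by rw [Real.exp_nat_mul]
        _ ≤ Real.exp (-B + -1) := Real.exp_le_exp.2 (by linarith)
        _ = Real.exp (-B) * Real.exp (-1) := Real.exp_add _ _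
        _ ≤ Real.exp (-B) * (1 / 2) := by gcongr
        _ = Real.exp (-B) / 2 := by ring
    have a2 : Real.exp (-(c1 * L ^ (1 + 99 / 4600 : ℝ))) ≤ Real.exp (-(5 * B)) := by
      apply Real.exp_le_exp.2
      have := mul_le_mul_of_nonneg_left g1 hc1.le
      rw [← mul_assoc, mul_div_cancel₀ _ hc1.ne'] at this
      linarith
    have a3 : (k : ℝ) ≤ Real.exp (2 * B) := by
      have := Real.add_one_le_exp B
      have e : Real.exp (2 * B) = Real.exp B * Real.exp B := by rw [← Real.exp_add]; ring_nf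
      rw [e]
      nlinarith
    have a4 : (k : ℝ) * Real.exp (-(c1 * L ^ (1 + 99 / 4600 : ℝ))) ≤ Real.exp (-(3 * B)) := by
      calc (k : ℝ) * Real.exp (-(c1 * L ^ (1 + 99 / 4600 : ℝ)))
          ≤ Real.exp (2 * B) * Real.exp (-(5 * B)) := by gcongr
        _ = Real.exp (-(3 * B)) := by rw [← Real.exp_add]; ring_nf
    have a5 : Real.exp (-B) / 2 ≤ m * Real.exp (-(3 * B)) := by
      have := mul_le_mul_of_nonneg_left a4 (Nat.cast_nonneg m : (0 : ℝ) ≤ m)
      linarith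
    have a6 : Real.exp (-B) = Real.exp B * Real.exp B * Real.exp (-(3 * B)) := by
      rw [← Real.exp_add, ← Real.exp_add]; ring_nf
    have a7 : 2 ≤ Real.exp B := by
      have := Real.add_one_le_exp B
      linarith
    have a8 : 0 < Real.exp (-(3 * B)) := Real.exp_pos _
    rw [a6] at a5
    have a9 : Real.exp B * Real.exp B / 2 ≤ m := by
      apply le_of_mul_le_mul_right _ a8
      linarith
    nlinarith
  exact_mod_cast Nat.ceil_le.2 hfin

end Vale.Agent.P321Z
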