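import Vale.Agent.P321Z.Defs
import Vale.Agent.P321.Bdl.B5
import Vale.Agent.P321.UB.Stat

/-!
From the sample complexity at success probability `2/3` to success probability `1 - exp (-n)`.
-/

namespace Vale.Agent.P321Z

open Vale.Agent.P321 Vale.Agent.P321.UB Finset
open scoped unitInterval ENNReal

theorem ofReal_two_thirds : ENNReal.ofReal (2 / 3) = 2 / 3 := by
  rw [ENNReal.ofReal_div_of_pos (by norm_num)]
  norm_num

theorem T_eq_Ts (q : I) (n : ℕ) : T q n = Ts q (2 / 3) n := by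
  unfold T Ts Reconstructs Succeeds
  rw [ofReal_two_thirds]

theorem Ts_mono_s (q : I) {s s' : ℝ} (h : s ≤ s') (n : ℕ) : Ts q s n ≤ Ts q s' n := by
  unfold Ts
  refine le_iInf₂ fun m hm => ?_
  obtain ⟨est, hest⟩ := hm
  exact iInf₂_le m ⟨est, fun x => (ENNReal.ofReal_le_ofReal h).trans (hest x)⟩

theorem l1_eq_words (q : I) (n : ℕ) (x y : List Bool) (hx : x.length ≤ n) (hy : y.length ≤ n) :
    l1 (W q y - W q x) =
      ∑ u ∈ words n, |(traceLaw q y u).toReal - (traceLaw q x u).toReal| := by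
  classical
  have e1 : ∀ z z' : Alg, ∀ w, (z - z').coeff w = z.coeff w - z'.coeff w := by
    intro z z' w
    have h1 : (z - z' + z').coeff w = z.coeff w := by rw [sub_add_cancel]
    rw [MonoidAlgebra.coeff_add, Finsupp.add_apply] at h1
    linarith
  have hc : ∀ z u : List Bool,
      (traceLaw q z u).toReal = (W q z).coeff (FreeMonoid.ofList u) := by
    intro z u
    rw [traceLaw_eq, ENNReal.toReal_ofReal ((W_prob q.2.1 q.2.2 z).1 _)]
  have hz : ∀ z u : List Bool, z.length ≤ n → u ∉ words n →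
      (W q z).coeff (FreeMonoid.ofList u) = 0 := by
    intro z u hzn hu
    rw [mem_words, not_le] at hu
    rw [← hc, traceLaw_eq_zero_of_length q z u (by omega)]
    rfl
  have hle : (W q y - W q x).coeff.support ⊆ (words n).map FreeMonoid.ofList.toEmbedding := by
    intro w hw
    rw [Finset.mem_map]
    refine ⟨FreeMonoid.toList w, ?_, rfl⟩
    by_contra hn
    have h1 := hz y _ hy hn
    have h2 := hz x _ hx hn
    rw [Finsupp.mem_support_iff, e1] at hw
    apply hw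
    change (W q y).coeff (FreeMonoid.ofList (FreeMonoid.toList w)) -
      (W q x).coeff (FreeMonoid.ofList (FreeMonoid.toList w)) = 0
    rw [h1, h2, sub_self]
  rw [l1_eq_sum _ _ hle, Finset.sum_map]
  refine Finset.sum_congr rfl fun u _ => ?_
  rw [hc, hc, e1]
  rfl

theorem tsum_bc_le' (q : I) (n : ℕ) {η : ℝ} (hη : 0 ≤ η) (x x' : List Bool) (hx : x.length ≤ n)
    (hx' : x'.length ≤ n) (hgap : η ≤ l1 (W q x - W q x')) :
    ∑' u, (traceLaw q x u) ^ (1 / 2 : ℝ) * (traceLaw q x' u) ^ (1 / 2 : ℝ) ≤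
      ENNReal.ofReal (1 - η ^ 2 / 8) := by
  have hf : ∀ y v, traceLaw q y v ≠ ⊤ := fun y v => (traceLaw q y).apply_ne_top v
  have hz : ∀ u ∉ words n, traceLaw q x u = 0 := fun u hu =>
    traceLaw_eq_zero_of_length q x u (by rw [mem_words, not_le] at hu; omega)
  have h1 : η ≤ ∑ u ∈ words n, |(traceLaw q x u).toReal - (traceLaw q x' u).toReal| := by
    rw [← l1_eq_words q n x' x hx' hx]
    exact hgap
  rw [tsum_eq_sum (s := words n)]
  · have h2 : ∀ u ∈ words n, (traceLaw q x u) ^ (1 / 2 : ℝ) * (traceLaw q x' u) ^ (1 / 2 : ℝ) =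
        ENNReal.ofReal (Real.sqrt (traceLaw q x u).toReal *
          Real.sqrt (traceLaw q x' u).toReal) := by
      intro u _
      rw [rpow_half_eq _ (hf _ _), rpow_half_eq _ (hf _ _),
        ENNReal.ofReal_mul (Real.sqrt_nonneg _)]
    rw [Finset.sum_congr rfl h2, ← ENNReal.ofReal_sum_of_nonneg]
    · apply ENNReal.ofReal_le_ofReal
      exact bc_le (words n) _ _ (fun _ => ENNReal.toReal_nonneg) (fun _ => ENNReal.toReal_nonneg)
        (sum_words_traceLaw q n x hx) (sum_words_traceLaw q n x' hx') hη h1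
    · intro u _
      exact mul_nonneg (Real.sqrt_nonneg _) (Real.sqrt_nonneg _)
  · intro u hu
    rw [hz u hu, ENNReal.zero_rpow_of_pos (by norm_num), zero_mul]

/-- If any two strings have trace laws at distance at least `η`, maximum likelihood succeeds with
probability `1 - exp (-n)` from `O(n/η²)` traces. -/
theorem Ts_le_of_gap (q : I) (n : ℕ) {η : ℝ} (hη : 0 < η) (hη1 : η ≤ 1)
    (hgap : ∀ x x' : Fin n → Bool, x ≠ x' → η ≤ l1 (W q (List.ofFn x) - W q (List.ofFn x'))) :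
    Ts q (1 - Real.exp (-n)) n ≤ (⌈(16 / η ^ 2) * (n + 2)⌉₊ : ℕ) := by
  classical
  set m : ℕ := ⌈(16 / η ^ 2) * (n + 2)⌉₊ with hm
  have hmax : ∀ ts : List (List Bool), ∃ x₀ : Fin n → Bool, ∀ x : Fin n → Bool,
      tracesLaw q (List.ofFn x) m ts ≤ tracesLaw q (List.ofFn x₀) m ts := fun ts =>
    Finite.exists_max (fun x : Fin n → Bool => tracesLaw q (List.ofFn x) m ts)
  choose mle hmle using hmax
  refine iInf₂_le m ⟨fun ts => PMF.pure (mle ts), ?_⟩
  intro x
  rw [PMF.bind_apply]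
  set G := ∑' ts, tracesLaw q (List.ofFn x) m ts * (PMF.pure (mle ts)) x with hG
  have h1 : ∑' ts, tracesLaw q (List.ofFn x) m ts = 1 := PMF.tsum_coe _
  have h2 : ∀ ts, tracesLaw q (List.ofFn x) m ts ≤
      tracesLaw q (List.ofFn x) m ts * (PMF.pure (mle ts)) x +
        ∑ x' ∈ univ.erase x, (tracesLaw q (List.ofFn x) m ts) ^ (1 / 2 : ℝ) *
          (tracesLaw q (List.ofFn x') m ts) ^ (1 / 2 : ℝ) := by
    intro ts
    by_cases h : x = mle ts
    · rw [PMF.pure_apply, if_pos h, mul_one]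
      exact le_self_add
    · have hmem : mle ts ∈ univ.erase x := Finset.mem_erase.mpr ⟨fun e => h e.symm, mem_univ _⟩
      have h3 : tracesLaw q (List.ofFn x) m ts ≤
          (tracesLaw q (List.ofFn x) m ts) ^ (1 / 2 : ℝ) *
            (tracesLaw q (List.ofFn (mle ts)) m ts) ^ (1 / 2 : ℝ) := by
        conv_lhs => rw [← rpow_half_mul_self (tracesLaw q (List.ofFn x) m ts)]
        exact mul_le_mul_right (ENNReal.rpow_le_rpow (hmle ts x) (by norm_num)) _
      refine h3.trans (le_trans ?_ le_add_self)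
      exact Finset.single_le_sum (f := fun x' : Fin n → Bool =>
        (tracesLaw q (List.ofFn x) m ts) ^ (1 / 2 : ℝ) *
          (tracesLaw q (List.ofFn x') m ts) ^ (1 / 2 : ℝ)) (fun _ _ => zero_le) hmem
  have h3 : (1 : ℝ≥0∞) ≤ G + ∑ x' ∈ univ.erase x, ∑' ts,
      (tracesLaw q (List.ofFn x) m ts) ^ (1 / 2 : ℝ) *
          (tracesLaw q (List.ofFn x') m ts) ^ (1 / 2 : ℝ) := by
    rw [← h1, hG]
    rw [← Summable.tsum_finsetSum (fun _ _ => ENNReal.summable), ← ENNReal.tsum_add]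
    exact ENNReal.tsum_le_tsum h2
  have hη2 : 0 ≤ 1 - η ^ 2 / 8 := by nlinarith
  have h4 : ∀ x' ∈ univ.erase x, ∑' ts,
      (tracesLaw q (List.ofFn x) m ts) ^ (1 / 2 : ℝ) *
          (tracesLaw q (List.ofFn x') m ts) ^ (1 / 2 : ℝ) ≤
        ENNReal.ofReal ((1 - η ^ 2 / 8) ^ m) := by
    intro x' hx'
    have hne : x ≠ x' := fun e => (Finset.mem_erase.mp hx').1 e.symm
    rw [tsum_bc_traces, ENNReal.ofReal_pow hη2]
    exact pow_le_pow_left' (tsum_bc_le' q n hη.le _ _ (by simp) (by simp) (hgap x x' hne)) m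
  have hcard : ((univ.erase x : Finset (Fin n → Bool)).card : ℝ) ≤ 2 ^ n := by
    have : (univ.erase x : Finset (Fin n → Bool)).card ≤ 2 ^ n := by
      calc (univ.erase x : Finset (Fin n → Bool)).card ≤ (univ : Finset (Fin n → Bool)).card :=
            Finset.card_le_card (Finset.erase_subset _ _)
        _ = 2 ^ n := by simp
    exact_mod_cast this
  have hreal : (2 : ℝ) ^ n * (1 - η ^ 2 / 8) ^ m ≤ Real.exp (-n) := by
    have a1 : (1 - η ^ 2 / 8) ^ m ≤ Real.exp (-(η ^ 2 / 8) * m) := by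
      have : 1 - η ^ 2 / 8 ≤ Real.exp (-(η ^ 2 / 8)) := by
        have := Real.add_one_le_exp (-(η ^ 2 / 8))
        linarith
      calc (1 - η ^ 2 / 8) ^ m ≤ (Real.exp (-(η ^ 2 / 8))) ^ m := pow_le_pow_left₀ hη2 this m
        _ = Real.exp (-(η ^ 2 / 8) * m) := by rw [← Real.exp_nat_mul]; ring_nf
    have a2 : (16 / η ^ 2) * (n + 2) ≤ (m : ℝ) := Nat.le_ceil _
    have a3 : 2 * ((n : ℝ) + 2) ≤ η ^ 2 / 8 * m := by
      have hη3 : 0 < η ^ 2 := by positivity
      calc 2 * ((n : ℝ) + 2) = η ^ 2 / 8 * ((16 / η ^ 2) * (n + 2)) := by field_simp; ring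
        _ ≤ η ^ 2 / 8 * m := by gcongr
    have a4 : (2 : ℝ) ^ n ≤ Real.exp n := by
      have : (2 : ℝ) ≤ Real.exp 1 := by
        have := Real.add_one_le_exp (1 : ℝ)
        linarith
      calc (2 : ℝ) ^ n ≤ (Real.exp 1) ^ n := pow_le_pow_left₀ (by norm_num) this n
        _ = Real.exp n := by rw [← Real.exp_nat_mul, mul_one]
    have a5 : Real.exp (-(η ^ 2 / 8) * m) ≤ Real.exp (-(2 * ((n : ℝ) + 2))) := by
      apply Real.exp_le_exp.mpr
      linarith
    calc (2 : ℝ) ^ n * (1 - η ^ 2 / 8) ^ m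
        ≤ Real.exp n * Real.exp (-(2 * ((n : ℝ) + 2))) := by
          apply mul_le_mul a4 (a1.trans a5) (pow_nonneg hη2 m) (Real.exp_nonneg _)
      _ = Real.exp (-(n : ℝ) - 4) := by rw [← Real.exp_add]; ring_nf
      _ ≤ Real.exp (-n) := by
          apply Real.exp_le_exp.mpr
          linarith
  have h5 : ∑ x' ∈ univ.erase x, ∑' ts,
      (tracesLaw q (List.ofFn x) m ts) ^ (1 / 2 : ℝ) *
          (tracesLaw q (List.ofFn x') m ts) ^ (1 / 2 : ℝ) ≤ ENNReal.ofReal (Real.exp (-n)) := by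
    calc _ ≤ ∑ x' ∈ univ.erase x, ENNReal.ofReal ((1 - η ^ 2 / 8) ^ m) := Finset.sum_le_sum h4
      _ = ENNReal.ofReal ((univ.erase x : Finset (Fin n → Bool)).card * (1 - η ^ 2 / 8) ^ m) := by
          rw [Finset.sum_const, nsmul_eq_mul, ENNReal.ofReal_mul (Nat.cast_nonneg _),
            ENNReal.ofReal_natCast]
      _ ≤ ENNReal.ofReal (Real.exp (-n)) := by
          apply ENNReal.ofReal_le_ofReal
          refine le_trans ?_ hreal
          exact mul_le_mul_of_nonneg_right hcard (pow_nonneg hη2 m)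
  have h6 : (1 : ℝ≥0∞) ≤ G + ENNReal.ofReal (Real.exp (-n)) := h3.trans (by gcongr)
  rw [ENNReal.ofReal_sub _ (Real.exp_pos _).le, ENNReal.ofReal_one]
  exact tsub_le_iff_right.mpr h6

/-- **Amplification.** -/
theorem Ts_le_of_T (q : I) {n : ℕ} (hn : 2 ≤ n) {X : ℝ} (hX : 0 ≤ X)
    (h : T q n ≤ (⌊Real.exp X⌋₊ : ℕ∞)) {s : ℝ} (hs : s ≤ 1 - Real.exp (-n)) :
    Ts q s n ≤ (⌊Real.exp (2 * X + 13 * Real.log n)⌋₊ : ℕ∞) := by
  refine (Ts_mono_s q hs n).trans ?_
  set M : ℕ := ⌊Real.exp X⌋₊ with hM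
  have hex : ∃ m : ℕ, m ≤ M ∧ ∃ est : Estimator n, Reconstructs q n m est := by
    by_contra hcon
    push Not at hcon
    have h2 : ((M + 1 : ℕ) : ℕ∞) ≤ T q n := by
      unfold T
      refine le_iInf₂ fun m hm => ?_
      obtain ⟨est, hest⟩ := hm
      have : M + 1 ≤ m := by
        by_contra h3
        exact hcon m (by omega) est hest
      exact_mod_cast this
    have h3 : ((M + 1 : ℕ) : ℕ∞) ≤ (M : ℕ∞) := h2.trans h
    have h4 : M + 1 ≤ M := by exact_mod_cast h3
    omega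
  obtain ⟨m, hmM, est, hest⟩ := hex
  have hE1 : 1 ≤ Real.exp X := Real.one_le_exp hX
  have hME : (M : ℝ) ≤ Real.exp X := Nat.floor_le (by positivity)
  have hmE : (m : ℝ) ≤ Real.exp X := le_trans (by exact_mod_cast hmM) hME
  have hη : 0 < 1 / (3 * Real.exp X) := by positivity
  have key := Ts_le_of_gap q n hη (by rw [div_le_one (by positivity)]; linarith) (by
    intro x x' hne
    have h1 := lower_bound q n m est hest x' x hne.symm
    have h0 := l1_nonneg (W q (List.ofFn x) - W q (List.ofFn x'))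
    rw [div_le_iff₀ (by positivity)]
    calc (1 : ℝ) ≤ 3 * m * l1 (W q (List.ofFn x) - W q (List.ofFn x')) := h1
      _ ≤ 3 * Real.exp X * l1 (W q (List.ofFn x) - W q (List.ofFn x')) := by gcongr
      _ = _ := by ring)
  refine key.trans ?_
  have hnR : (2 : ℝ) ≤ n := by exact_mod_cast hn
  have hfin : ⌈16 / (1 / (3 * Real.exp X)) ^ 2 * ((n : ℝ) + 2)⌉₊ ≤
      ⌊Real.exp (2 * X + 13 * Real.log n)⌋₊ := by
    apply Nat.le_floor
    have e1 : 16 / (1 / (3 * Real.exp X)) ^ 2 * ((n : ℝ) + 2) =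
        144 * Real.exp X ^ 2 * ((n : ℝ) + 2) := by
      field_simp
      ring
    have e2 : Real.exp (2 * X + 13 * Real.log n) = Real.exp X ^ 2 * (n : ℝ) ^ 13 := by
      rw [Real.exp_add, show (2 : ℝ) * X = ((2 : ℕ) : ℝ) * X by norm_num, Real.exp_nat_mul,
        show (13 : ℝ) * Real.log n = ((13 : ℕ) : ℝ) * Real.log n by norm_num, Real.exp_nat_mul,
        Real.exp_log (by linarith)]
    rw [e1, e2]
    have e3 := (Nat.ceil_lt_add_one
      (show 0 ≤ 144 * Real.exp X ^ 2 * ((n : ℝ) + 2) by positivity)).le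
    refine e3.trans ?_
    have e4 : (1 : ℝ) ≤ Real.exp X ^ 2 := one_le_pow₀ hE1
    have e5 : (2 : ℝ) ^ 12 ≤ (n : ℝ) ^ 12 := pow_le_pow_left₀ (by norm_num) hnR 12
    have e6 : 144 * ((n : ℝ) + 2) + 1 ≤ (n : ℝ) ^ 13 := by
      have : (n : ℝ) ^ 13 = (n : ℝ) ^ 12 * n := by ring
      rw [this]
      nlinarith
    nlinarith
  exact_mod_cast hfin

end Vale.Agent.P321Z
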